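import Vale.Agent.Lib.P040.Straight

namespace Vale.Agent.Results.P040.LineMonotone

open Vale.Agent.P040

theorem result :
    -- drawings with one class on a line and edges monotone in the orthogonal direction
    (∀ (m n : ℕ) (D : LineDrawing m n), d m * d n ≤ (crossings D).card) ∧
    -- in particular straight-line drawings with one class on a line
    (∀ (m n : ℕ) (p : Fin m → ℝ) (v : Fin n → ℝ × ℝ), Function.Injective p →
      (∀ k, (v k).2 ≠ 0) → (∀ k l i, k ≠ l → v l ∉ segment ℝ ((p i, 0) : ℝ × ℝ) (v k)) →
      d m * d n ≤ (segCrossings p v).card) :=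
  ⟨fun _ _ D => bound D, fun _ _ p v hp hv hav => bound_straight p v hp hv hav⟩

end Vale.Agent.Results.P040.LineMonotone
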